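import Vale.Agent.P343.Live

namespace Vale.Agent.Results.P343.SakodaSipser

open Vale.Agent.P343

theorem result :
    (∀ h : ℕ, 2 ≤ h → ∃ (A : Type) (_ : Fintype A) (M : TwoNFA A (h + 2)), M.IsOneWay ∧
      ∀ (m : ℕ) (D : TwoNFA A m), D.IsDet → D.lang = M.lang →
        2 ^ ((h - 2) / 19) ≤ 2 * m + 1) ∧
    (¬ ∃ p : Polynomial ℝ, ∀ (A : Type) [Fintype A] (n : ℕ) (M : TwoNFA A n),
      ∃ (m : ℕ) (D : TwoNFA A m), D.IsDet ∧ D.lang = M.lang ∧ (m : ℝ) ≤ p.eval (n : ℝ)) ∧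
    (¬ ∃ p : Polynomial ℝ, ∀ (A : Type) [Fintype A] (n : ℕ) (M : TwoNFA A n), M.IsOneWay →
      ∃ (m : ℕ) (D : TwoNFA A m), D.IsDet ∧ D.lang = M.lang ∧ (m : ℝ) ≤ p.eval (n : ℝ)) := by
  refine ⟨fun h hh => ⟨Lt h, inferInstance, liveNFA h, liveNFA_oneWay h,
    fun m D hD hL => live_lower hh D hD hL⟩, ?_, no_poly⟩
  rintro ⟨p, hp⟩
  exact no_poly ⟨p, fun A _ n M _ => hp A n M⟩

end Vale.Agent.Results.P343.SakodaSipser
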